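import Mathlib

/-!
Mod-2 chains of ordered tuples (lists), boundary, cones, generic subdivision chain maps.
-/

set_option autoImplicit false

namespace Crest.Agent.Lib.BorsukUlam

open Finsupp

abbrev F2 := ZMod 2
abbrev Ch (X : Type*) := List X →₀ F2

variable {X Y : Type*}

noncomputable def lin {M : Type*} [AddCommGroup M] [Module F2 M] (F : List X → M) :
    Ch X →ₗ[F2] M := Finsupp.linearCombination F2 F

noncomputable def sg (l : List X) : Ch X := Finsupp.single l 1

@[simp] lemma lin_sg {M : Type*} [AddCommGroup M] [Module F2 M] (F : List X → M) (l : List X) :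
    lin F (sg l) = F l := by simp [lin, sg]

lemma ch_ext {M : Type*} [AddCommGroup M] [Module F2 M] {f g : Ch X →ₗ[F2] M}
    (h : ∀ l, f (sg l) = g (sg l)) : f = g := by
  apply Finsupp.lhom_ext'
  intro l
  apply LinearMap.ext_ring
  simpa [sg] using h l

lemma add_self_F2 {M : Type*} [AddCommGroup M] [Module F2 M] (x : M) : x + x = 0 := by
  have : (1 + 1 : F2) = 0 := by decide
  calc x + x = (1 + 1 : F2) • x := by rw [add_smul, one_smul]
    _ = 0 := by rw [this, zero_smul]

noncomputable def cone (v : X) : Ch X →ₗ[F2] Ch X := lin fun l => sg (v :: l)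

@[simp] lemma cone_sg (v : X) (l : List X) : cone v (sg l) = sg (v :: l) := by simp [cone]

noncomputable def bd0 : List X → Ch X
  | [] => 0
  | v :: l => sg l + cone v (bd0 l)

noncomputable def bd : Ch X →ₗ[F2] Ch X := lin bd0

@[simp] lemma bd_sg (l : List X) : bd (sg l) = bd0 l := by simp [bd]

lemma bd_cone (v : X) (c : Ch X) : bd (cone v c) = c + cone v (bd c) := by
  have : bd ∘ₗ cone v = LinearMap.id + cone v ∘ₗ (bd : Ch X →ₗ[F2] Ch X) := by
    apply ch_ext; intro l; simp [bd0]
  simpa using LinearMap.congr_fun this c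

lemma bd_bd0 (l : List X) : bd (bd0 l) = 0 := by
  induction l with
  | nil => simp [bd0]
  | cons v l ih =>
    simp only [bd0, map_add, bd_sg, bd_cone, ih, map_zero, add_zero]
    exact add_self_F2 _

lemma bd_bd (c : Ch X) : bd (bd c) = 0 := by
  have : (bd : Ch X →ₗ[F2] Ch X) ∘ₗ bd = 0 := by
    apply ch_ext; intro l; simp [bd_bd0]
  simpa using LinearMap.congr_fun this c

/-- push-forward along a map of vertices -/
noncomputable def push (g : X → Y) : Ch X →ₗ[F2] Ch Y := lin fun l => sg (l.map g)

@[simp] lemma push_sg (g : X → Y) (l : List X) : push g (sg l) = sg (l.map g) := by simp [push]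

lemma push_cone (g : X → Y) (v : X) (c : Ch X) : push g (cone v c) = cone (g v) (push g c) := by
  have : push g ∘ₗ cone v = cone (g v) ∘ₗ push g := by
    apply ch_ext; intro l; simp
  simpa using LinearMap.congr_fun this c

lemma push_bd0 (g : X → Y) (l : List X) : push g (bd0 l) = bd0 (l.map g) := by
  induction l with
  | nil => simp [bd0]
  | cons v l ih => simp [bd0, push_cone, ih]

lemma push_bd (g : X → Y) (c : Ch X) : push g (bd c) = bd (push g c) := by
  have : push g ∘ₗ bd = bd ∘ₗ push g := by
    apply ch_ext; intro l; simp [push_bd0]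
  simpa using LinearMap.congr_fun this c

lemma push_push_invol (g : X → X) (hg : ∀ x, g (g x) = x) (c : Ch X) : push g (push g c) = c := by
  have : push g ∘ₗ push g = LinearMap.id := by
    apply ch_ext; intro l
    have : g ∘ g = id := funext hg
    simp [this]
  simpa using LinearMap.congr_fun this c

/-- generic subdivision -/
noncomputable def sub (b : List X → Y) : ℕ → Ch X →ₗ[F2] Ch Y
  | 0 => lin fun _ => sg []
  | n + 1 => lin fun l => cone (b l) (sub b n (bd0 l))

lemma sub_zero_sg (b : List X → Y) (l : List X) : sub b 0 (sg l) = sg [] := by simp [sub]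

lemma sub_succ_sg (b : List X → Y) (n : ℕ) (l : List X) :
    sub b (n + 1) (sg l) = cone (b l) (sub b n (bd0 l)) := by simp [sub]

lemma bd_sub_zero (b : List X → Y) (c : Ch X) : bd (sub b 0 c) = 0 := by
  have : bd ∘ₗ sub b 0 = 0 := by
    apply ch_ext; intro l; simp [sub_zero_sg, bd0]
  simpa using LinearMap.congr_fun this c

lemma bd_sub (b : List X → Y) (n : ℕ) (c : Ch X) : bd (sub b (n + 1) c) = sub b n (bd c) := by
  induction n generalizing c with
  | zero =>
    have : bd ∘ₗ sub b 1 = sub b 0 ∘ₗ bd := by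
      apply ch_ext; intro l
      simp [sub_succ_sg, bd_cone, bd_sub_zero]
    simpa using LinearMap.congr_fun this c
  | succ n ih =>
    have : bd ∘ₗ sub b (n + 2) = sub b (n + 1) ∘ₗ bd := by
      apply ch_ext; intro l
      simp [sub_succ_sg, bd_cone, ih, bd_bd0]
    simpa using LinearMap.congr_fun this c

lemma push_sub (b : List X → Y) (g : X → X) (g' : Y → Y) (hb : ∀ l, b (l.map g) = g' (b l))
    (n : ℕ) (c : Ch X) : push g' (sub b n c) = sub b n (push g c) := by
  induction n generalizing c with
  | zero =>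
    have : push g' ∘ₗ sub b 0 = sub b 0 ∘ₗ push g := by
      apply ch_ext; intro l; simp [sub_zero_sg]
    simpa using LinearMap.congr_fun this c
  | succ n ih =>
    have : push g' ∘ₗ sub b (n + 1) = sub b (n + 1) ∘ₗ push g := by
      apply ch_ext; intro l
      simp [sub_succ_sg, push_cone, ih, hb, push_bd0]
    simpa using LinearMap.congr_fun this c

/-- chains all of whose simplices satisfy `P` -/
def Supp (P : List X → Prop) : Submodule F2 (Ch X) := Finsupp.supported F2 F2 {l | P l}

lemma sg_mem_Supp {P : List X → Prop} {l : List X} (h : P l) : sg l ∈ Supp P :=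
  Finsupp.single_mem_supported F2 1 h

lemma Supp_mono {P Q : List X → Prop} (h : ∀ l, P l → Q l) {c : Ch X} (hc : c ∈ Supp P) :
    c ∈ Supp Q := Finsupp.supported_mono (fun l hl => h l hl) hc

lemma map_mem_of_Supp {M : Type*} [AddCommGroup M] [Module F2 M] {P : List X → Prop}
    (f : Ch X →ₗ[F2] M) (N : Submodule F2 M) (h : ∀ l, P l → f (sg l) ∈ N) {c : Ch X}
    (hc : c ∈ Supp P) : f c ∈ N := by
  have : Supp P ≤ N.comap f := by
    unfold Supp
    rw [Finsupp.supported_eq_span_single, Submodule.span_le]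
    rintro _ ⟨l, hl, rfl⟩
    exact h l hl
  exact this hc

lemma eq_of_Supp {M : Type*} [AddCommGroup M] [Module F2 M] {P : List X → Prop}
    (f g : Ch X →ₗ[F2] M) (h : ∀ l, P l → f (sg l) = g (sg l)) {c : Ch X}
    (hc : c ∈ Supp P) : f c = g c := by
  have := map_mem_of_Supp (f - g) ⊥ (fun l hl => by simp [h l hl]) hc
  simpa [sub_eq_zero] using this

lemma cone_mem_Supp {P Q : List X → Prop} (v : X) (h : ∀ l, P l → Q (v :: l)) {c : Ch X}
    (hc : c ∈ Supp P) : cone v c ∈ Supp Q :=
  map_mem_of_Supp _ _ (fun l hl => by simpa using sg_mem_Supp (h l hl)) hc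

lemma bd0_mem_Supp (l : List X) :
    bd0 l ∈ Supp (fun l' => l'.Sublist l ∧ l'.length + 1 = l.length) := by
  induction l with
  | nil => simp [bd0]
  | cons v l ih =>
    simp only [bd0]
    refine Submodule.add_mem _ (sg_mem_Supp ⟨List.sublist_cons_self v l, by simp⟩) ?_
    refine cone_mem_Supp v ?_ ih
    rintro l' ⟨h1, h2⟩
    exact ⟨h1.cons_cons v, by simp [h2]⟩

/-- flags of faces -/
inductive Flag (b : List X → Y) : List X → List Y → Prop
  | nil : Flag b [] []
  | cons {l l' : List X} {ys : List Y} : l'.Sublist l → l'.length + 1 = l.length →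
      Flag b l' ys → Flag b l (b l :: ys)

lemma Flag.length_eq {b : List X → Y} {l : List X} {ys : List Y} (h : Flag b l ys) :
    ys.length = l.length := by
  induction h with
  | nil => rfl
  | cons _ h2 _ ih => simp [ih, h2]

lemma sub_sg_mem_Supp (b : List X → Y) (l : List X) :
    sub b l.length (sg l) ∈ Supp (Flag b l) := by
  generalize hn : l.length = n
  induction n generalizing l with
  | zero =>
    have : l = [] := List.length_eq_zero_iff.mp hn
    subst this
    rw [sub_zero_sg]; exact sg_mem_Supp Flag.nil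
  | succ n ih =>
    rw [sub_succ_sg]
    refine cone_mem_Supp (P := fun ys => ∃ l', l'.Sublist l ∧ l'.length + 1 = l.length ∧
      Flag b l' ys) _ ?_ ?_
    · rintro ys ⟨l', h1, h2, h3⟩
      exact Flag.cons h1 h2 h3
    · refine map_mem_of_Supp _ _ ?_ (bd0_mem_Supp l)
      rintro l' ⟨h1, h2⟩
      refine Supp_mono ?_ (ih l' (by omega))
      intro ys hys
      exact ⟨l', h1, h2, hys⟩

lemma sub_mem_Supp (b : List X → Y) (n : ℕ) {P : List X → Prop} {Q : List Y → Prop}
    (h : ∀ l ys, P l → l.length = n → Flag b l ys → Q ys) {c : Ch X}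
    (hc : c ∈ Supp (fun l => P l ∧ l.length = n)) :
    sub b n c ∈ Supp (fun ys => Q ys ∧ ys.length = n) := by
  refine map_mem_of_Supp _ _ ?_ hc
  rintro l ⟨h1, h2⟩
  have := sub_sg_mem_Supp b l
  rw [h2] at this
  exact Supp_mono (fun ys hys => ⟨h l ys h1 h2 hys, by rw [hys.length_eq, h2]⟩) this

/-! ### Yang sequences -/

/-- `c k` is a `k`-chain (lists of length `k+1`) with `∂ c 0 = []`,
`∂ c (k+1) = c k + ν c k`. -/
structure Yang (ν : X → X) (c : ℕ → Ch X) : Prop where
  zero : bd (c 0) = sg []
  succ : ∀ k, bd (c (k + 1)) = c k + push ν (c k)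

lemma Yang.sub {ν : X → X} {ν' : Y → Y} {c : ℕ → Ch X} (hc : Yang ν c) (b : List X → Y)
    (hb : ∀ l, b (l.map ν) = ν' (b l)) : Yang ν' (fun k => sub b (k + 1) (c k)) where
  zero := by rw [bd_sub, hc.zero, sub_zero_sg]
  succ k := by rw [bd_sub, hc.succ, map_add, push_sub b ν ν' hb]

/-- the hemispheres of the cross-polytope -/
noncomputable def zc (ν : X → X) (e : ℕ → X) : ℕ → Ch X
  | 0 => sg []
  | k + 1 => cone (e k) (zc ν e k) + push ν (cone (e k) (zc ν e k))

lemma bd_zc (ν : X → X) (hν : ∀ x, ν (ν x) = x) (e : ℕ → X) (k : ℕ) :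
    bd (zc ν e k) = 0 ∧ push ν (zc ν e k) = zc ν e k := by
  induction k with
  | zero => simp [zc, bd0]
  | succ k ih =>
    constructor
    · simp only [zc, map_add, ← push_bd, bd_cone, ih.1, ih.2, map_zero, add_zero]
      exact add_self_F2 _
    · simp only [zc, map_add, push_push_invol ν hν]
      exact add_comm _ _

lemma yang_zc (ν : X → X) (hν : ∀ x, ν (ν x) = x) (e : ℕ → X) :
    Yang ν (fun k => cone (e k) (zc ν e k)) where
  zero := by simp [zc, bd0]
  succ k := by
    rw [bd_cone, (bd_zc ν hν e (k + 1)).1, map_zero, add_zero]; rfl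

/-! ### The alternation cocycle on lists of reals -/

open Classical in
noncomputable def chi (t : ℝ) : F2 := if 0 < t then 1 else 0

noncomputable def alt : List ℝ → F2
  | [] => 1
  | [_] => 1
  | a :: b :: l => (chi a + chi b) * alt (b :: l)

noncomputable def altP : List ℝ → F2
  | [] => 1
  | a :: l => chi a * alt (a :: l)

lemma lin_cone {M : Type*} [AddCommGroup M] [Module F2 M] (F : List X → M) (v : X) (c : Ch X) :
    lin F (cone v c) = lin (fun l => F (v :: l)) c := by
  have : lin F ∘ₗ cone v = lin (fun l => F (v :: l)) := by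
    apply ch_ext; intro l; simp
  simpa using LinearMap.congr_fun this c

lemma lin_mul (F : List X → F2) (a : F2) (c : Ch X) :
    lin (fun l => a * F l) c = a * lin F c := by
  have : lin (fun l => a * F l) = a • lin F := by
    apply ch_ext; intro l; simp
  simpa using LinearMap.congr_fun this c

lemma lin_alt_cons (a b : ℝ) (l : List ℝ) :
    lin (fun l' => alt (a :: l')) (bd0 (b :: l)) = alt (b :: l) := by
  induction l generalizing a b with
  | nil => simp [bd0, alt]
  | cons c l ih =>
    rw [bd0, map_add, lin_sg, lin_cone]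
    simp only [alt]
    rw [lin_mul, ih]
    have h2 : chi a + chi a = 0 := add_self_F2 _
    linear_combination (alt (c :: l)) * h2

lemma lin_altP_bd0 (l : List ℝ) (hl : l ≠ []) : lin altP (bd0 l) = alt l := by
  match l, hl with
  | [a], _ => simp [bd0, alt, altP]
  | a :: b :: l, _ =>
    rw [bd0, map_add, lin_sg, lin_cone]
    simp only [altP]
    rw [lin_mul, lin_alt_cons]
    simp only [alt]; ring

lemma chi_neg {t : ℝ} (ht : t ≠ 0) : chi (-t) = chi t + 1 := by
  unfold chi
  rcases lt_or_gt_of_ne ht with h | h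
  · rw [if_pos (by linarith), if_neg (by linarith)]; simp
  · rw [if_neg (by linarith), if_pos h]; decide

lemma alt_neg (l : List ℝ) (hl : ∀ t ∈ l, t ≠ 0) : alt (l.map Neg.neg) = alt l := by
  induction l with
  | nil => rfl
  | cons a l ih =>
    cases l with
    | nil => rfl
    | cons b l =>
      have ih' := ih (fun t ht => hl t (List.mem_cons_of_mem _ ht))
      simp only [List.map_cons, alt] at ih' ⊢
      rw [ih', chi_neg (hl a (by simp)), chi_neg (hl b (by simp))]
      have h2 : (1 : F2) + 1 = 0 := by decide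
      linear_combination (alt (b :: l)) * h2

lemma altP_add_neg (l : List ℝ) (hl : ∀ t ∈ l, t ≠ 0) (hne : l ≠ []) :
    altP l + altP (l.map Neg.neg) = alt l := by
  match l, hne with
  | a :: l, _ =>
    have := alt_neg (a :: l) hl
    simp only [List.map_cons, altP] at this ⊢
    rw [this, chi_neg (hl a (by simp))]
    have h2 : chi a + chi a = 0 := add_self_F2 _
    linear_combination (alt (a :: l)) * h2

lemma Yang.alt_eq_one {c : ℕ → Ch ℝ} (hc : Yang Neg.neg c) (n : ℕ)
    (hs : ∀ k ≤ n, c k ∈ Supp (fun l => (∀ t ∈ l, t ≠ 0) ∧ l.length = k + 1)) :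
    lin alt (c n) = 1 := by
  have key : ∀ k ≤ n, lin alt (c k) = lin altP (bd (c k)) := by
    intro k hk
    refine eq_of_Supp (lin alt) (lin altP ∘ₗ bd) ?_ (hs k hk)
    rintro l ⟨-, h2⟩
    have : l ≠ [] := by rintro rfl; simp at h2
    simp [lin_altP_bd0 l this]
  induction n with
  | zero => rw [key 0 le_rfl, hc.zero]; simp [altP]
  | succ n ih =>
    rw [key _ le_rfl, hc.succ, ← ih (fun k hk => hs k (by omega)) (fun k hk => key k (by omega))]
    refine eq_of_Supp (lin altP ∘ₗ (LinearMap.id + push Neg.neg)) (lin alt) ?_ (hs n (by omega))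
    rintro l ⟨h1, h2⟩
    have : l ≠ [] := by rintro rfl; simp at h2
    simp [altP_add_neg l h1 this]

end Crest.Agent.Lib.BorsukUlam
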