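import Mathlib
import Crest.Agent.Lib.BorsukUlam.Chains

/-!
The Borsuk–Ulam theorem, via mod-2 chains, iterated barycentric subdivision and a Ky Fan labelling.
-/

set_option autoImplicit false

namespace Crest.Agent.Lib.BorsukUlam

open Finset

section Bary

variable {E : Type*} [NormedAddCommGroup E] [NormedSpace ℝ E]

noncomputable def bary (l : List E) : E := ((l.length : ℝ)⁻¹) • l.sum

lemma bary_neg (l : List E) : bary (l.map Neg.neg) = - bary l := by
  unfold bary
  have : (l.map Neg.neg).sum = - l.sum := by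
    induction l with
    | nil => simp
    | cons a l ih => simp [ih, add_comm]
  simp [this]

lemma sum_mem_smul {C : Set E} (hC : Convex ℝ C) (l : List E) (hl : ∀ v ∈ l, v ∈ C)
    (hne : l ≠ []) : bary l ∈ C := by
  induction l with
  | nil => exact absurd rfl hne
  | cons a l ih =>
    by_cases h : l = []
    · subst h; simpa [bary] using hl a (by simp)
    · have h1 := ih (fun v hv => hl v (List.mem_cons_of_mem _ hv)) h
      have hpos : (0 : ℝ) < l.length := by
        exact_mod_cast List.length_pos_iff.mpr h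
      have := hC (hl a (by simp)) h1 (a := ((l.length : ℝ) + 1)⁻¹)
        (b := (l.length : ℝ) * ((l.length : ℝ) + 1)⁻¹) (by positivity) (by positivity)
        (by field_simp; ring)
      convert this using 1
      unfold bary
      simp only [List.length_cons, List.sum_cons, Nat.cast_add, Nat.cast_one, smul_add, smul_smul]
      congr 2
      field_simp

lemma norm_sum_sub_le (l : List E) (p : E) (D : ℝ) (h : ∀ v ∈ l, dist v p ≤ D) :
    ‖l.sum - (l.length : ℝ) • p‖ ≤ l.length * D := by
  induction l with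
  | nil => simp
  | cons a l ih =>
    have h1 := ih (fun v hv => h v (List.mem_cons_of_mem _ hv))
    have h2 := h a (by simp)
    rw [dist_eq_norm] at h2
    have : (a :: l).sum - ((a :: l).length : ℝ) • p = (a - p) + (l.sum - (l.length : ℝ) • p) := by
      simp only [List.sum_cons, List.length_cons, Nat.cast_add, Nat.cast_one, add_smul, one_smul]
      abel
    rw [this]
    refine (norm_add_le _ _).trans ?_
    simp only [List.length_cons, Nat.cast_add, Nat.cast_one]
    linarith

lemma norm_sum_sub_le' (l : List E) (p : E) (D : ℝ) (h : ∀ v ∈ l, dist v p ≤ D) (hp : p ∈ l) :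
    ‖l.sum - (l.length : ℝ) • p‖ ≤ (l.length - 1) * D := by
  induction l with
  | nil => simp at hp
  | cons a l ih =>
    have : (a :: l).sum - ((a :: l).length : ℝ) • p = (a - p) + (l.sum - (l.length : ℝ) • p) := by
      simp only [List.sum_cons, List.length_cons, Nat.cast_add, Nat.cast_one, add_smul, one_smul]
      abel
    rw [this]
    refine (norm_add_le _ _).trans ?_
    simp only [List.length_cons, Nat.cast_add, Nat.cast_one]
    rcases List.mem_cons.mp hp with rfl | hp'
    · have := norm_sum_sub_le l p D (fun v hv => h v (List.mem_cons_of_mem _ hv))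
      simpa using this
    · have h1 := ih (fun v hv => h v (List.mem_cons_of_mem _ hv)) hp'
      have h2 := h a (by simp)
      rw [dist_eq_norm] at h2
      linarith

lemma dist_bary_le (l : List E) (D : ℝ) (hD : 0 ≤ D) (N : ℕ) (hN : l.length ≤ N)
    (h : ∀ v ∈ l, ∀ w ∈ l, dist v w ≤ D) (p : E) (hp : p ∈ l) :
    dist (bary l) p ≤ (1 - (N : ℝ)⁻¹) * D := by
  have hpos : (0 : ℝ) < l.length := by
    exact_mod_cast List.length_pos_of_mem hp
  have h1 := norm_sum_sub_le' l p D (fun v hv => h v hv p hp) hp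
  have h2 : bary l - p = ((l.length : ℝ)⁻¹) • (l.sum - (l.length : ℝ) • p) := by
    rw [smul_sub, smul_smul, inv_mul_cancel₀ hpos.ne', one_smul]; rfl
  rw [dist_eq_norm, h2, norm_smul, Real.norm_eq_abs, abs_of_pos (inv_pos.mpr hpos)]
  have hN' : (l.length : ℝ) ≤ N := by exact_mod_cast hN
  have h3 : (N : ℝ)⁻¹ ≤ (l.length : ℝ)⁻¹ := inv_anti₀ hpos hN'
  calc (l.length : ℝ)⁻¹ * ‖l.sum - (l.length : ℝ) • p‖
      ≤ (l.length : ℝ)⁻¹ * ((l.length - 1) * D) := by gcongr
    _ = (1 - (l.length : ℝ)⁻¹) * D := by field_simp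
    _ ≤ (1 - (N : ℝ)⁻¹) * D := by gcongr

lemma Flag.mem_convex {l ys : List E} (h : Flag bary l ys) {C : Set E} (hC : Convex ℝ C)
    (hl : ∀ v ∈ l, v ∈ C) : ∀ y ∈ ys, y ∈ C := by
  induction h with
  | nil => simp
  | @cons l l' ys h1 h2 _ ih =>
    intro y hy
    rcases List.mem_cons.mp hy with rfl | hy
    · exact sum_mem_smul hC l hl (by rintro rfl; simp at h2)
    · exact ih (fun v hv => hl v (h1.subset hv)) y hy

lemma Flag.dist_le {l ys : List E} (h : Flag bary l ys) (D : ℝ) (hD : 0 ≤ D) (N : ℕ)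
    (hN0 : 1 ≤ N) (hN : l.length ≤ N) (hl : ∀ v ∈ l, ∀ w ∈ l, dist v w ≤ D) :
    ∀ y ∈ ys, ∀ y' ∈ ys, dist y y' ≤ (1 - (N : ℝ)⁻¹) * D := by
  have hr : 0 ≤ (1 - (N : ℝ)⁻¹) * D := by
    have : (1 : ℝ) ≤ N := by exact_mod_cast hN0
    have : (N : ℝ)⁻¹ ≤ 1 := inv_le_one_of_one_le₀ this
    exact mul_nonneg (by linarith) hD
  induction h with
  | nil => simp
  | @cons l l' ys h1 h2 h3 ih =>
    have key : ∀ y ∈ ys, dist y (bary l) ≤ (1 - (N : ℝ)⁻¹) * D := by
      have := h3.mem_convex (convex_closedBall (bary l) ((1 - (N : ℝ)⁻¹) * D)) (fun v hv => by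
        rw [Metric.mem_closedBall, dist_comm]
        exact dist_bary_le l D hD N hN hl v (h1.subset hv))
      simpa using this
    intro y hy y' hy'
    rcases List.mem_cons.mp hy with rfl | hy <;> rcases List.mem_cons.mp hy' with rfl | hy'
    · simpa using hr
    · rw [dist_comm]; exact key _ hy'
    · exact key _ hy
    · exact ih (by omega) (fun v hv w hw => hl v (h1.subset hv) w (h1.subset hw)) y hy y' hy'

end Bary

section Main

variable {n : ℕ}

/-- a facet of the cross-polytope -/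
def facet (s : Fin (n + 1) → ℝ) : Set (Fin (n + 1) → ℝ) :=
  {v | (∀ i, 0 ≤ s i * v i) ∧ ∑ i, s i * v i = 1}

lemma convex_facet (s : Fin (n + 1) → ℝ) : Convex ℝ (facet s) := by
  rintro v ⟨hv1, hv2⟩ w ⟨hw1, hw2⟩ a b ha hb hab
  constructor
  · intro i
    have := hv1 i
    have := hw1 i
    simp only [Pi.add_apply, Pi.smul_apply, smul_eq_mul]
    have : s i * (a * v i + b * w i) = a * (s i * v i) + b * (s i * w i) := by ring
    rw [this]; positivity
  · have : ∀ i, s i * (a • v + b • w) i = a * (s i * v i) + b * (s i * w i) := by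
      intro i; simp only [Pi.add_apply, Pi.smul_apply, smul_eq_mul]; ring
    simp only [this, sum_add_distrib, ← mul_sum, hv2, hw2]; linarith

/-- the boundary of the cross-polytope -/
def cross (n : ℕ) : Set (Fin (n + 1) → ℝ) := {v | ∑ i, |v i| = 1}

lemma facet_subset {s : Fin (n + 1) → ℝ} (hs : ∀ i, |s i| = 1) : facet s ⊆ cross n := by
  rintro v ⟨h1, h2⟩
  unfold cross
  simp only [Set.mem_ofPred_eq]
  rw [← h2]
  refine sum_congr rfl fun i _ => ?_
  rw [← abs_of_nonneg (h1 i), abs_mul, hs i, one_mul]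

lemma cross_norm_le {v : Fin (n + 1) → ℝ} (hv : v ∈ cross n) : ‖v‖ ≤ 1 := by
  refine (pi_norm_le_iff_of_nonneg zero_le_one).mpr fun i => ?_
  rw [Real.norm_eq_abs, ← show ∑ i, |v i| = 1 from hv]
  exact single_le_sum (f := fun i => |v i|) (fun i _ => abs_nonneg _) (mem_univ i)

lemma isCompact_cross : IsCompact (cross n) := by
  refine Metric.isCompact_of_isClosed_isBounded ?_ ?_
  · exact isClosed_eq (by fun_prop) continuous_const
  · exact (Metric.isBounded_closedBall (x := 0) (r := 1)).subset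
      (fun v hv => by simpa using cross_norm_le hv)

lemma cross_ne_zero {v : Fin (n + 1) → ℝ} (hv : v ∈ cross n) : v ≠ 0 := by
  rintro rfl
  simp [cross] at hv

def Good (D : ℝ) (l : List (Fin (n + 1) → ℝ)) : Prop :=
  (∃ s : Fin (n + 1) → ℝ, (∀ i, |s i| = 1) ∧ ∀ v ∈ l, v ∈ facet s) ∧
    ∀ v ∈ l, ∀ w ∈ l, dist v w ≤ D

def ebas (n : ℕ) (k : ℕ) : Fin (n + 1) → ℝ := fun i => if (i : ℕ) = k then 1 else 0

/-- invariant for the hemispheres -/
def Init (k : ℕ) (l : List (Fin (n + 1) → ℝ)) : Prop :=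
  (∃ s : Fin (n + 1) → ℝ, (∀ i, |s i| = 1) ∧ ∀ v ∈ l, v ∈ facet s ∧
    ∀ i : Fin (n + 1), k ≤ (i : ℕ) → v i = 0) ∧ l.length = k

lemma Init.neg {k : ℕ} {l : List (Fin (n + 1) → ℝ)} (h : Init k l) : Init k (l.map Neg.neg) := by
  obtain ⟨⟨s, hs, h1⟩, h2⟩ := h
  refine ⟨⟨-s, by simpa using hs, ?_⟩, by simpa using h2⟩
  intro v hv
  obtain ⟨w, hw, rfl⟩ := List.mem_map.mp hv
  obtain ⟨⟨h3, h4⟩, h5⟩ := h1 w hw
  exact ⟨⟨by simpa using h3, by simpa using h4⟩, by simpa using h5⟩

lemma Init.cons {k : ℕ} (hk : k ≤ n) {l : List (Fin (n + 1) → ℝ)} (h : Init k l) :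
    Init (k + 1) (ebas n k :: l) := by
  obtain ⟨⟨s, hs, h1⟩, h2⟩ := h
  refine ⟨⟨fun i => if (i : ℕ) = k then 1 else s i, ?_, ?_⟩, by simp [h2]⟩
  · intro i; by_cases hi : (i : ℕ) = k <;> simp [hi, hs]
  · intro v hv
    rcases List.mem_cons.mp hv with rfl | hv
    · refine ⟨⟨?_, ?_⟩, ?_⟩
      · intro i; by_cases hi : (i : ℕ) = k <;> simp [hi, ebas]
      · rw [sum_eq_single ⟨k, by omega⟩]
        · simp [ebas]
        · intro i _ hi
          have : (i : ℕ) ≠ k := fun h => hi (Fin.ext h)
          simp [ebas, this]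
        · simp
      · intro i hi
        have : (i : ℕ) ≠ k := by omega
        simp [ebas, this]
    · obtain ⟨⟨h3, h4⟩, h5⟩ := h1 v hv
      have e : ∀ i : Fin (n + 1), (if (i : ℕ) = k then 1 else s i) * v i = s i * v i := by
        intro i
        by_cases hi : (i : ℕ) = k
        · simp [hi, h5 i hi.ge]
        · simp [hi]
      refine ⟨⟨fun i => by rw [e]; exact h3 i, by simp only [e]; exact h4⟩, ?_⟩
      intro i hi
      exact h5 i (by omega)

lemma zc_mem (k : ℕ) (hk : k ≤ n + 1) : zc Neg.neg (ebas n) k ∈ Supp (Init (n := n) k) := by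
  induction k with
  | zero => exact sg_mem_Supp ⟨⟨fun _ => 1, by simp, by simp⟩, rfl⟩
  | succ k ih =>
    have h1 : cone (ebas n k) (zc Neg.neg (ebas n) k) ∈ Supp (Init (n := n) (k + 1)) :=
      cone_mem_Supp _ (fun l hl => hl.cons (by omega)) (ih (by omega))
    refine Submodule.add_mem _ h1 ?_
    exact map_mem_of_Supp _ _ (fun l hl => by simpa using sg_mem_Supp hl.neg) h1

lemma exists_yang_good (D : ℝ) (hD : 0 < D) :
    ∃ c : ℕ → Ch (Fin (n + 1) → ℝ), Yang Neg.neg c ∧
      ∀ k ≤ n, c k ∈ Supp (fun l => Good D l ∧ l.length = k + 1) := by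
  have step : ∀ m : ℕ, ∃ c : ℕ → Ch (Fin (n + 1) → ℝ), Yang Neg.neg c ∧
      ∀ k ≤ n, c k ∈ Supp (fun l => Good (2 * (1 - ((n + 1 : ℕ) : ℝ)⁻¹) ^ m) l ∧
        l.length = k + 1) := by
    have hr : 0 ≤ 1 - ((n + 1 : ℕ) : ℝ)⁻¹ := by
      have : (1 : ℝ) ≤ (n + 1 : ℕ) := by exact_mod_cast Nat.le_add_left 1 n
      have : ((n + 1 : ℕ) : ℝ)⁻¹ ≤ 1 := inv_le_one_of_one_le₀ this
      linarith
    intro m
    induction m with
    | zero =>
      refine ⟨_, yang_zc Neg.neg neg_neg (ebas n), fun k hk => ?_⟩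
      refine Supp_mono ?_ (cone_mem_Supp (Q := Init (k + 1)) _ (fun l hl => hl.cons hk)
        (zc_mem k (by omega)))
      rintro l ⟨⟨s, hs, h1⟩, h2⟩
      refine ⟨⟨⟨s, hs, fun v hv => (h1 v hv).1⟩, fun v hv w hw => ?_⟩, h2⟩
      have h3 := cross_norm_le (facet_subset hs (h1 v hv).1)
      have h4 := cross_norm_le (facet_subset hs (h1 w hw).1)
      have := dist_le_norm_add_norm v w
      simp only [pow_zero]; linarith
    | succ m ih =>
      obtain ⟨c, hc, hs⟩ := ih
      refine ⟨_, hc.sub bary bary_neg, fun k hk => ?_⟩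
      refine sub_mem_Supp bary (k + 1) ?_ (hs k hk)
      rintro l ys ⟨⟨s, hs1, hs2⟩, h2⟩ h3 h4
      refine ⟨⟨s, hs1, h4.mem_convex (convex_facet s) hs2⟩, ?_⟩
      have := h4.dist_le _ (by positivity) (n + 1) (by omega) (by omega) h2
      intro v hv w hw
      refine (this v hv w hw).trans (le_of_eq ?_)
      ring
  have hlt : 1 - ((n + 1 : ℕ) : ℝ)⁻¹ < 1 := by
    have : (0 : ℝ) < ((n + 1 : ℕ) : ℝ)⁻¹ := by positivity
    linarith
  obtain ⟨m, hm⟩ := exists_pow_lt_of_lt_one (show 0 < D / 2 by positivity) hlt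
  obtain ⟨c, hc, hs⟩ := step m
  refine ⟨c, hc, fun k hk => Supp_mono ?_ (hs k hk)⟩
  rintro l ⟨⟨h1, h2⟩, h3⟩
  exact ⟨⟨h1, fun v hv w hw => (h2 v hv w hw).trans (by linarith)⟩, h3⟩

end Main

section Label

variable {X : Type*} {m : ℕ}

noncomputable def amax (g : Fin (m + 1) → ℝ) : Fin (m + 1) :=
  Classical.choose (Finite.exists_max g)

lemma le_amax (g : Fin (m + 1) → ℝ) (j : Fin (m + 1)) : g j ≤ g (amax g) :=
  Classical.choose_spec (Finite.exists_max g) j

noncomputable def idx (f : X → Fin (m + 1) → ℝ) (v : X) : Fin (m + 1) := amax fun j => |f v j|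

noncomputable def key (f : X → Fin (m + 1) → ℝ) : List X → Fin (m + 1)
  | [] => 0
  | v :: l => max (idx f v) (key f l)

noncomputable def lab (f : X → Fin (m + 1) → ℝ) (l : List X) : ℝ :=
  (l.map fun v => f v (key f l)).sum

lemma idx_le_key (f : X → Fin (m + 1) → ℝ) {l : List X} {v : X} (hv : v ∈ l) :
    idx f v ≤ key f l := by
  induction l with
  | nil => simp at hv
  | cons a l ih =>
    rcases List.mem_cons.mp hv with rfl | hv
    · exact le_max_left _ _
    · exact (ih hv).trans (le_max_right _ _)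

lemma exists_idx_eq_key (f : X → Fin (m + 1) → ℝ) {l : List X} (hl : l ≠ []) :
    ∃ v ∈ l, idx f v = key f l := by
  induction l with
  | nil => exact absurd rfl hl
  | cons a l ih =>
    by_cases h : l = []
    · subst h; exact ⟨a, by simp, by simp [key]⟩
    · obtain ⟨v, hv, hv'⟩ := ih h
      rcases le_total (idx f a) (key f l) with h1 | h1
      · exact ⟨v, List.mem_cons_of_mem _ hv, by simp [key, h1, hv']⟩
      · exact ⟨a, by simp, by simp [key, h1]⟩

lemma lab_neg (f : X → Fin (m + 1) → ℝ) (ν : X → X) (hf : ∀ v, f (ν v) = - f v) (l : List X) :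
    lab f (l.map ν) = - lab f l := by
  have h1 : ∀ v, idx f (ν v) = idx f v := by
    intro v; unfold idx; simp [hf]
  have h2 : ∀ l : List X, key f (l.map ν) = key f l := by
    intro l
    induction l with
    | nil => rfl
    | cons a l ih => simp [key, h1, ih]
  unfold lab
  rw [h2]
  generalize key f l = j
  induction l with
  | nil => simp
  | cons a l ih =>
    simp only [List.map_cons, List.sum_cons, ih, hf, Pi.neg_apply]; ring

def Small (f : X → Fin (m + 1) → ℝ) (l : List X) : Prop :=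
  ∀ v ∈ l, ∀ w ∈ l, ∀ i, |f v i - f w i| < |f w (idx f w)|

lemma Small.sublist {f : X → Fin (m + 1) → ℝ} {l l' : List X} (h : Small f l)
    (h' : l'.Sublist l) : Small f l' := fun v hv w hw => h v (h'.subset hv) w (h'.subset hw)

lemma Small.sign {f : X → Fin (m + 1) → ℝ} {l : List X} (h : Small f l) (hl : l ≠ []) :
    (∀ v ∈ l, 0 < f v (key f l)) ∨ (∀ v ∈ l, f v (key f l) < 0) := by
  obtain ⟨w, hw, hw'⟩ := exists_idx_eq_key f hl
  have h1 : ∀ v ∈ l, |f v (key f l) - f w (key f l)| < |f w (key f l)| := by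
    intro v hv
    have := h v hv w hw (key f l)
    rwa [hw'] at this
  rcases le_total 0 (f w (key f l)) with h2 | h2
  · left; intro v hv
    have := h1 v hv
    rw [abs_of_nonneg h2, abs_lt] at this
    linarith
  · right; intro v hv
    have := h1 v hv
    rw [abs_of_nonpos h2, abs_lt] at this
    linarith

lemma sum_map_pos (g : X → ℝ) {l : List X} (hl : l ≠ []) (h : ∀ v ∈ l, 0 < g v) :
    0 < (l.map g).sum := by
  refine List.sum_pos _ ?_ (by simpa using hl)
  intro x hx
  obtain ⟨v, hv, rfl⟩ := List.mem_map.mp hx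
  exact h v hv

lemma sum_map_neg (g : X → ℝ) {l : List X} (hl : l ≠ []) (h : ∀ v ∈ l, g v < 0) :
    (l.map g).sum < 0 := by
  have := sum_map_pos (fun v => - g v) hl (fun v hv => by linarith [h v hv])
  have e : (l.map fun v => - g v).sum = - (l.map g).sum := by
    clear this h hl
    induction l with
    | nil => simp
    | cons a l ih => simp only [List.map_cons, List.sum_cons, ih]; ring
  linarith

lemma Small.lab_ne {f : X → Fin (m + 1) → ℝ} {l : List X} (h : Small f l) (hl : l ≠ []) :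
    lab f l ≠ 0 := by
  rcases h.sign hl with h1 | h1
  · exact (sum_map_pos _ hl h1).ne'
  · exact (sum_map_neg _ hl h1).ne

lemma Flag.lab_ne {f : X → Fin (m + 1) → ℝ} {l : List X} {ys : List ℝ} (h : Flag (lab f) l ys)
    (hs : Small f l) : ∀ t ∈ ys, t ≠ 0 := by
  induction h with
  | nil => simp
  | @cons l l' ys h1 h2 _ ih =>
    intro t ht
    rcases List.mem_cons.mp ht with rfl | ht
    · exact hs.lab_ne (by rintro rfl; simp at h2)
    · exact ih (hs.sublist h1) t ht

lemma Flag.alt_bound {f : X → Fin (m + 1) → ℝ} {l : List X} {ys : List ℝ}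
    (h : Flag (lab f) l ys) (hs : Small f l) (ha : alt ys ≠ 0) :
    ys.length ≤ (key f l : ℕ) + 1 := by
  induction h with
  | nil => simp
  | @cons l l' ys h1 h2 h3 ih =>
    cases h3 with
    | nil => simp
    | @cons _ l'' ys' h4 h5 h6 =>
      have hl' : l' ≠ [] := by rintro rfl; simp at h5
      have hl : l ≠ [] := by rintro rfl; simp at h2
      simp only [alt] at ha
      have ha1 := left_ne_zero_of_mul ha
      have ha2 := right_ne_zero_of_mul ha
      have ih' := ih (hs.sublist h1) ha2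
      have hle : key f l' ≤ key f l := by
        obtain ⟨w, hw, hw'⟩ := exists_idx_eq_key f hl'
        rw [← hw']; exact idx_le_key f (h1.subset hw)
      have hne : key f l' ≠ key f l := by
        intro heq
        apply ha1
        have : chi (lab f l) = chi (lab f l') := by
          unfold chi
          rcases hs.sign hl with h7 | h7
          · have a1 : 0 < lab f l := sum_map_pos _ hl h7
            have a2 : 0 < lab f l' := sum_map_pos _ hl'
              (fun v hv => by rw [heq]; exact h7 v (h1.subset hv))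
            simp [a1, a2]
          · have a1 : lab f l < 0 := sum_map_neg _ hl h7
            have a2 : lab f l' < 0 := sum_map_neg _ hl'
              (fun v hv => by rw [heq]; exact h7 v (h1.subset hv))
            simp [a1.le, a2.le, not_lt.mpr]
        rw [this]; exact add_self_F2 _
      have hlt : (key f l' : ℕ) < key f l := Fin.lt_def.mp (lt_of_le_of_ne hle hne)
      simp only [List.length_cons] at ih' ⊢
      omega

end Label

theorem borsuk_ulam_fin (n : ℕ) (f : (Fin (n + 1) → ℝ) → Fin n → ℝ)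
    (hodd : ∀ v, f (-v) = - f v) (hc : ContinuousOn f {0}ᶜ) : ∃ v, v ≠ 0 ∧ f v = 0 := by
  by_contra hcon
  push Not at hcon
  cases n with
  | zero => exact hcon (fun _ => 1) (by intro h; simpa using congr_fun h 0) (Subsingleton.elim _ _)
  | succ m =>
    have hcK : ContinuousOn f (cross (m + 1)) := hc.mono fun v hv => cross_ne_zero hv
    have hne : (cross (m + 1)).Nonempty := ⟨ebas (m + 1) 0, by
      simp [cross, ebas, Fin.sum_univ_succ]⟩
    obtain ⟨v₀, hv₀, hmin⟩ := isCompact_cross.exists_isMinOn hne hcK.norm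
    have hη : 0 < ‖f v₀‖ := norm_pos_iff.mpr (hcon v₀ (cross_ne_zero hv₀))
    obtain ⟨δ, hδ, hu⟩ := Metric.uniformContinuousOn_iff.mp
      (isCompact_cross.uniformContinuousOn_of_continuous hcK) _ hη
    obtain ⟨c, hY, hs⟩ := exists_yang_good (n := m + 1) (δ / 2) (by positivity)
    have hsmall : ∀ l, Good (δ / 2) l → Small f l := by
      rintro l ⟨⟨s, hs1, hs2⟩, h2⟩ v hv w hw i
      have hv' := facet_subset hs1 (hs2 v hv)
      have hw' := facet_subset hs1 (hs2 w hw)
      have h3 := hu v hv' w hw' ((h2 v hv w hw).trans_lt (by linarith))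
      have h4 : ‖f v₀‖ ≤ ‖f w‖ := hmin hw'
      have h5 : ‖f w‖ ≤ |f w (idx f w)| :=
        (pi_norm_le_iff_of_nonneg (abs_nonneg _)).mpr fun j => le_amax (fun j => |f w j|) j
      have h6 : |f v i - f w i| ≤ dist (f v) (f w) := by
        rw [← Real.dist_eq]; exact dist_le_pi_dist _ _ i
      linarith
    have hY' := hY.sub (lab f) (lab_neg f Neg.neg hodd)
    have h1 := hY'.alt_eq_one (m + 1) (fun k hk =>
      sub_mem_Supp (lab f) (k + 1) (fun l ys hl _ hf => hf.lab_ne (hsmall l hl)) (hs k hk))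
    have h2 : sub (lab f) (m + 1 + 1) (c (m + 1)) ∈
        Supp (fun ys => alt ys = 0 ∧ ys.length = m + 1 + 1) := by
      refine sub_mem_Supp (lab f) _ (fun l ys hl hlen hf => ?_) (hs (m + 1) le_rfl)
      by_contra ha
      have := hf.alt_bound (hsmall l hl) ha
      have h3 := (key f l).2
      rw [hf.length_eq, hlen] at this
      omega
    have h3 := eq_of_Supp (lin alt) 0 (fun l hl => by simp [hl.1]) h2
    rw [h1] at h3
    simp at h3

/-- **Borsuk–Ulam theorem.** -/
theorem borsuk_ulam {E G : Type*} [NormedAddCommGroup E] [NormedSpace ℝ E] [FiniteDimensional ℝ E]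
    [NormedAddCommGroup G] [NormedSpace ℝ G] [FiniteDimensional ℝ G]
    (hd : Module.finrank ℝ G < Module.finrank ℝ E) (f : E → G)
    (hodd : ∀ v, f (-v) = - f v) (hc : ContinuousOn f {0}ᶜ) : ∃ v, v ≠ 0 ∧ f v = 0 := by
  set n := Module.finrank ℝ G with hn
  obtain ⟨ι, hι⟩ : ∃ ι : (Fin (n + 1) → ℝ) →ₗ[ℝ] E, Function.Injective ι := by
    rw [← finrank_le_iff_exists_linearMap]
    simpa using hd
  let π : G ≃L[ℝ] (Fin n → ℝ) := ContinuousLinearEquiv.ofFinrankEq (by simp [hn])
  have hιc : Continuous ι := ι.continuous_of_finiteDimensional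
  obtain ⟨v, hv, h0⟩ := borsuk_ulam_fin n (fun v => π (f (ι v))) (by intro v; simp [hodd]) (by
    refine π.continuous.comp_continuousOn (hc.comp hιc.continuousOn ?_)
    intro v hv h
    exact hv (hι (by simpa using h)))
  exact ⟨ι v, fun h => hv (hι (by simpa using h)), by simpa using h0⟩

end Crest.Agent.Lib.BorsukUlam
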